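import Vale.Agent.P217.Core.Engine.Weights

/-!
# P217 module G: what one test exponent forces
-/

noncomputable section

namespace Vale.Agent.P217.Engine

open Filter MvPolynomial

variable {p n : ℕ} [Fact p.Prime] (D : EngineData p n)

/-- The ring of definition of the transports. -/
abbrev ring : Subring D.K := Subring.closure ((D.A : Set D.K) ∪ Set.range D.T)

theorem norm_ring_le {y : D.K} (hy : y ∈ ring D) : ‖y‖ ≤ 1 := by
  induction hy using Subring.closure_induction with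
  | mem x hx =>
    rcases hx with hx | ⟨i, rfl⟩
    exacts [D.A_norm x hx, D.T_norm i]
  | zero => simp
  | one => simp
  | add a b _ _ ha hb => exact norm_add_le' ha hb
  | neg a _ ha => rwa [norm_neg]
  | mul a b _ _ ha hb => exact norm_mul_le_one ha hb

/-- A transport is as close to the identity as it is on the generators. -/
theorem norm_transport_sub_le (τ : ring D →+* D.K) {δ : ℝ} (h0 : 0 ≤ δ) (h1 : δ ≤ 1)
    (hA : ∀ y (hy : y ∈ D.A), ‖τ ⟨y, Subring.subset_closure (Or.inl hy)⟩ - y‖ ≤ δ)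
    (hT : ∀ i, ‖τ ⟨D.T i, Subring.subset_closure (Or.inr ⟨i, rfl⟩)⟩ - D.T i‖ ≤ δ)
    (z : ring D) : ‖τ z - z.1‖ ≤ δ := by
  obtain ⟨y, hy⟩ := z
  induction hy using Subring.closure_induction with
  | mem x hx =>
    rcases hx with hx | ⟨i, rfl⟩
    exacts [hA x hx, hT i]
  | zero => simpa [show (⟨0, zero_mem _⟩ : ring D) = 0 from rfl] using h0
  | one => simpa [show (⟨1, one_mem _⟩ : ring D) = 1 from rfl] using h0
  | add a b ha hb iha ihb =>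
    have e : τ (⟨a, ha⟩ + ⟨b, hb⟩) - (a + b) = (τ ⟨a, ha⟩ - a) + (τ ⟨b, hb⟩ - b) := by
      rw [map_add]; ring
    exact (congrArg norm e).le.trans (norm_add_le' iha ihb)
  | neg a ha iha =>
    have e : τ (-⟨a, ha⟩) - -a = -(τ ⟨a, ha⟩ - a) := by rw [map_neg]; ring
    exact (congrArg norm e).le.trans (by rwa [norm_neg])
  | mul a b ha hb iha ihb =>
    have hta : ‖τ ⟨a, ha⟩‖ ≤ 1 := by
      rw [show τ ⟨a, ha⟩ = (τ ⟨a, ha⟩ - a) + a by ring]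
      exact norm_add_le' (iha.trans h1) (norm_ring_le D ha)
    have e : τ (⟨a, ha⟩ * ⟨b, hb⟩) - a * b
        = τ ⟨a, ha⟩ * (τ ⟨b, hb⟩ - b) + (τ ⟨a, ha⟩ - a) * b := by rw [map_mul]; ring
    refine (congrArg norm e).le.trans (norm_add_le' ?_ ?_) <;> rw [norm_mul]
    · exact (mul_le_of_le_one_left (norm_nonneg _) hta).trans ihb
    · exact (mul_le_of_le_one_right (norm_nonneg _) (norm_ring_le D hb)).trans iha

variable {M M' : ℕ} {Q : MvPolynomial (Fin (D.c + 1)) D.K} {t : Fin (D.c + 1) → ℕ}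
  {g : Fin (D.c + 1) → D.K}

/-- A transport moves the relation by a `p ^ M`-th power of its displacement. -/
theorem norm_eval_transport (hQ : IsRel (ring D) D.T M M' p Q) (τ : ring D →+* D.K) {δ : ℝ}
    (h0 : 0 ≤ δ) (h1 : δ ≤ 1) (hτ : ∀ z : ring D, ‖τ z - z.1‖ ≤ δ) :
    ‖eval (D.T + fun i => τ ⟨D.T i, Subring.subset_closure (Or.inr ⟨i, rfl⟩)⟩ - D.T i) Q‖
      ≤ δ ^ p ^ M := by
  choose z hz hz' using hQ.coeff_pow
  let x : Fin (D.c + 1) → ring D := fun i => ⟨D.T i, Subring.subset_closure (Or.inr ⟨i, rfl⟩)⟩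
  have hx : (D.T + fun i => τ (x i) - D.T i) = fun i => τ (x i) := funext fun i => by simp
  have hrel : ∑ α ∈ Q.support, τ ⟨z α, hz α⟩ ^ p ^ M * ∏ i, τ (x i) ^ α i = 0 := by
    have h : ∑ α ∈ Q.support, (⟨z α, hz α⟩ : ring D) ^ p ^ M * ∏ i, x i ^ α i = 0 := by
      apply Subtype.ext
      rw [ZeroMemClass.coe_zero, ← hQ.eval_eq, eval_eq', AddSubmonoidClass.coe_finsetSum]
      refine Finset.sum_congr rfl fun α _ => ?_
      simp [hz', x]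
    have h2 := congrArg τ h
    simp only [map_sum, map_mul, map_pow, map_prod, map_zero] at h2
    exact h2
  rw [hx, eval_eq', ← sub_zero (∑ _ ∈ Q.support, _), ← hrel, ← Finset.sum_sub_distrib]
  refine IsUltrametricDist.norm_sum_le_of_forall_le_of_nonneg (pow_nonneg h0 _) fun α _ => ?_
  rw [hz' α, ← sub_mul, ← sub_pow_char_pow, norm_mul, norm_pow, norm_prod, norm_sub_rev]
  refine (mul_le_of_le_one_right (pow_nonneg (norm_nonneg _) _)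
    (Finset.prod_le_one (fun i _ => norm_nonneg _) fun i _ => ?_)).trans
    (pow_le_pow_left₀ (norm_nonneg _) (hτ _) _)
  rw [norm_pow]
  refine pow_le_one₀ (norm_nonneg _) ?_
  rw [show τ (x i) = (τ (x i) - (x i).1) + (x i).1 by ring]
  exact norm_add_le' ((hτ _).trans h1) (norm_ring_le D (x i).2)

/-- The upper and lower bounds of the main sizes. -/
theorem exists_B_bounds (i : Fin (D.c + 1)) (ε : Fin 2) (k : ℕ) :
    ∃ C : ℝ, ∀ᶠ m in atTop,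
      D.B i ε m ^ k ≤ Real.exp (C - D.scale m * ((k : ℝ) * D.w i ε)) ∧
      Real.exp (-C - D.scale m * ((k : ℝ) * D.w i ε)) ≤ D.B i ε m ^ k := by
  obtain ⟨C, hC⟩ := D.B_asymp i ε
  refine ⟨k * C, hC.mono fun m hm => ?_⟩
  obtain ⟨h1, h2⟩ := abs_le.1 hm
  rw [← Real.exp_log (D.B_pos i ε m), ← Real.exp_nat_mul, Real.exp_le_exp, Real.exp_le_exp]
  have hk : (0 : ℝ) ≤ k := Nat.cast_nonneg k
  constructor <;> nlinarith

/-- Everything but the rows of least weight is negligible. -/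
theorem eventually_negligible (ε : Fin 2) (hR : ∀ i, g i ≠ 0 →
      (∀ j, (p : ℝ) ^ t i * D.w i ε < (p : ℝ) ^ M * D.w j ε) ∧
      (p : ℝ) ^ t i * D.w i ε < (p : ℝ) ^ M * D.γ ε)
    {s₀ : Fin (D.c + 1)} (hs₀ : g s₀ ≠ 0)
    (hmin : ∀ i, g i ≠ 0 → (p : ℝ) ^ t s₀ * D.w s₀ ε ≤ (p : ℝ) ^ t i * D.w i ε) (C₀ : ℝ) :
    ∀ᶠ m in atTop,
      (∀ j, D.B j ε m ≤ 1 ∧ D.B j ε m ^ p ^ M < ‖g s₀‖ * D.B s₀ ε m ^ p ^ t s₀) ∧
      Real.exp (C₀ - D.scale m * D.γ ε) ≤ 1 ∧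
      Real.exp (C₀ - D.scale m * D.γ ε) ^ p ^ M < ‖g s₀‖ * D.B s₀ ε m ^ p ^ t s₀ ∧
      (∀ i, g i ≠ 0 → (D.B i ε m ^ p ^ t i) ^ 2 < ‖g s₀‖ * D.B s₀ ε m ^ p ^ t s₀) ∧
      ∀ i, g i ≠ 0 → (p : ℝ) ^ t i * D.w i ε ≠ (p : ℝ) ^ t s₀ * D.w s₀ ε →
        ‖g i‖ * D.B i ε m ^ p ^ t i < ‖g s₀‖ * D.B s₀ ε m ^ p ^ t s₀ := by
  have hg : 0 < ‖g s₀‖ := norm_pos_iff.2 hs₀
  have hp : (0 : ℝ) < p := by exact_mod_cast (Fact.out : p.Prime).pos
  have hpos : 0 < (p : ℝ) ^ t s₀ * D.w s₀ ε := mul_pos (pow_pos hp _) (D.w_pos _ _)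
  obtain ⟨C, hC⟩ := exists_B_bounds D s₀ ε (p ^ t s₀)
  have hφ : ∀ᶠ m in atTop, Real.exp ((Real.log ‖g s₀‖ - C)
      - D.scale m * ((p : ℝ) ^ t s₀ * D.w s₀ ε)) ≤ ‖g s₀‖ * D.B s₀ ε m ^ p ^ t s₀ :=
    hC.mono fun m hm => by
      have h := mul_le_mul_of_nonneg_left hm.2 hg.le
      push_cast at h
      conv at h => lhs; rw [← Real.exp_log hg, ← Real.exp_add]
      refine le_trans (le_of_eq ?_) h
      congr 1; ring
  have step : ∀ {f : ℕ → ℝ} {x C₁ : ℝ}, (p : ℝ) ^ t s₀ * D.w s₀ ε < x →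
      (∀ᶠ m in atTop, f m ≤ Real.exp (C₁ - D.scale m * x)) →
      ∀ᶠ m in atTop, f m < ‖g s₀‖ * D.B s₀ ε m ^ p ^ t s₀ :=
    fun hx hf => eventually_lt_of_weight D.scale_tendsto hx hf hφ
  have e1 : ∀ j, ∀ᶠ m in atTop,
      D.B j ε m ≤ 1 ∧ D.B j ε m ^ p ^ M < ‖g s₀‖ * D.B s₀ ε m ^ p ^ t s₀ := fun j => by
    obtain ⟨C₁, h1⟩ := exists_B_bounds D j ε 1
    obtain ⟨C₂, h2⟩ := exists_B_bounds D j ε (p ^ M)
    have a : ∀ᶠ m in atTop, D.B j ε m < 1 := by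
      refine eventually_lt_of_weight D.scale_tendsto (C₁ := C₁) (C₂ := 0) (D.w_pos j ε) ?_
        (Eventually.of_forall fun m => by simp)
      exact h1.mono fun m hm => by simpa using hm.1
    have b := step (f := fun m => D.B j ε m ^ p ^ M) (C₁ := C₂)
      (x := (p : ℝ) ^ M * D.w j ε) ((hR s₀ hs₀).1 j)
      (h2.mono fun m hm => by simpa using hm.1)
    filter_upwards [a, b] with m h h' using ⟨h.le, h'⟩
  have e2 : ∀ᶠ m in atTop, Real.exp (C₀ - D.scale m * D.γ ε) < 1 :=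
    eventually_lt_of_weight D.scale_tendsto (C₁ := C₀) (C₂ := 0) (D.γ_pos ε)
      (Eventually.of_forall fun m => le_rfl) (Eventually.of_forall fun m => by simp)
  have e3 := step (f := fun m => Real.exp (C₀ - D.scale m * D.γ ε) ^ p ^ M)
    (x := (p : ℝ) ^ M * D.γ ε) (C₁ := (p : ℝ) ^ M * C₀) (hR s₀ hs₀).2
    (Eventually.of_forall fun m => le_of_eq (by
      rw [← Real.exp_nat_mul]; congr 1; push_cast; ring))
  have e4 : ∀ i, g i ≠ 0 →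
      ∀ᶠ m in atTop, (D.B i ε m ^ p ^ t i) ^ 2 < ‖g s₀‖ * D.B s₀ ε m ^ p ^ t s₀ := fun i hi => by
    obtain ⟨C₁, h1⟩ := exists_B_bounds D i ε (p ^ t i * 2)
    refine step (x := ((p : ℝ) ^ t i * 2) * D.w i ε) (C₁ := C₁) ?_ (h1.mono fun m hm => ?_)
    · linarith [hmin i hi]
    · rw [← pow_mul]
      simpa using hm.1
  have e5 : ∀ i, g i ≠ 0 → (p : ℝ) ^ t i * D.w i ε ≠ (p : ℝ) ^ t s₀ * D.w s₀ ε →
      ∀ᶠ m in atTop, ‖g i‖ * D.B i ε m ^ p ^ t i < ‖g s₀‖ * D.B s₀ ε m ^ p ^ t s₀ := fun i hi hne => by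
    obtain ⟨C₁, h1⟩ := exists_B_bounds D i ε (p ^ t i)
    refine step (x := (p : ℝ) ^ t i * D.w i ε) (C₁ := Real.log ‖g i‖ + C₁)
      (lt_of_le_of_ne (hmin i hi) (Ne.symm hne)) (h1.mono fun m hm => ?_)
    have h := mul_le_mul_of_nonneg_left hm.1 (norm_nonneg (g i))
    push_cast at h
    conv at h => rhs; rw [← Real.exp_log (norm_pos_iff.2 hi), ← Real.exp_add]
    refine h.trans (le_of_eq ?_)
    congr 1; ring
  filter_upwards [eventually_all.2 e1, e2, e3, eventually_all.2 fun i => eventually_imp_distrib_left.2 (e4 i),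
    eventually_all.2 fun i => eventually_imp_distrib_left.2 fun hi =>
      eventually_imp_distrib_left.2 (e5 i hi)] with m h1 h2 h3 h4 h5
  exact ⟨h1, h2.le, h3, h4, h5⟩

variable (hn : 1 ≤ n) (hQ : IsRel (ring D) D.T M M' p Q)
  (hexp : ∀ (Δ : Fin (D.c + 1) → D.K) (δ : ℝ), 0 ≤ δ → δ ≤ 1 →
    (∀ i, g i ≠ 0 → ‖Δ i‖ ^ p ^ t i ≤ δ) →
      ‖eval (D.T + Δ) Q - ∑ i, g i * Δ i ^ p ^ t i‖ ≤ δ ^ 2)
  (hne : ∃ i, g i ≠ 0)

include hn hQ hexp hne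

/-- At each test exponent the pair, with equal weights and coefficients of equal size, is the
leading term, and it cancels at each common exponent. -/
theorem eventually_pair (ε : Fin 2) (hR : ∀ i, g i ≠ 0 →
      (∀ j, (p : ℝ) ^ t i * D.w i ε < (p : ℝ) ^ M * D.w j ε) ∧
      (p : ℝ) ^ t i * D.w i ε < (p : ℝ) ^ M * D.γ ε) :
    ∀ᶠ m in atTop, D.a₀ ≠ D.b₀ ∧ t D.a₀ = t D.b₀ ∧ ‖g D.b₀‖ = ‖g D.a₀‖ ∧
      ∀ κ, (κ = D.lo D.a₀ ε ∨ κ = D.hi D.a₀ ε) → D.lo D.b₀ ε ≤ κ → κ ≤ D.hi D.b₀ ε →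
        ‖g D.a₀ * D.ξ D.a₀ ε m κ ^ p ^ t D.a₀ + g D.b₀ * D.ξ D.b₀ ε m κ ^ p ^ t D.a₀‖
          < ‖g D.a₀‖ * D.B D.a₀ ε m ^ p ^ t D.a₀ := by
  classical
  set U := Finset.univ.filter fun i => g i ≠ 0 with hU
  have hUne : U.Nonempty := hne.imp fun i hi => by simpa [hU] using hi
  obtain ⟨s₀, hs₀, hmin⟩ := Finset.exists_min_image U (fun i => (p : ℝ) ^ t i * D.w i ε) hUne
  have hgs₀ : g s₀ ≠ 0 := (Finset.mem_filter.1 hs₀).2
  set S := U.filter fun i => (p : ℝ) ^ t i * D.w i ε = (p : ℝ) ^ t s₀ * D.w s₀ ε with hSdef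
  have hS : ∀ i ∈ S, g i ≠ 0 ∧ (p : ℝ) ^ t i * D.w i ε = (p : ℝ) ^ t s₀ * D.w s₀ ε := fun i hi =>
    ⟨(Finset.mem_filter.1 (Finset.mem_filter.1 hi).1).2, (Finset.mem_filter.1 hi).2⟩
  obtain ⟨C₀, hmove⟩ := D.move ε
  filter_upwards [hmove, eventually_all.2 fun i => D.ξ_le i ε,
    eventually_all.2 fun i => D.ξ_ends i ε,
    eventually_negligible D ε hR hgs₀ (fun i hi => hmin i (by simpa [hU] using hi)) C₀]
    with m hτ hξ hξe ⟨hB, hC1, hC2, hB2, hout⟩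
  obtain ⟨i₀, hi₀, hmax⟩ := Finset.exists_max_image S (fun i => ‖g i‖ * D.B i ε m ^ p ^ t i)
    ⟨s₀, Finset.mem_filter.2 ⟨hs₀, rfl⟩⟩
  set r := ‖g i₀‖ * D.B i₀ ε m ^ p ^ t i₀ with hr
  have hr0 : 0 < r := mul_pos (norm_pos_iff.2 (hS i₀ hi₀).1) (pow_pos (D.B_pos _ _ _) _)
  have hφr : ‖g s₀‖ * D.B s₀ ε m ^ p ^ t s₀ ≤ r := hmax s₀ (Finset.mem_filter.2 ⟨hs₀, rfl⟩)
  let J := S.sigma fun i => Finset.Icc (D.lo i ε) (D.hi i ε)
  let uJ : (Σ _ : Fin (D.c + 1), ℤ) → D.K := fun q => g q.1 * D.ξ q.1 ε m q.2 ^ p ^ t q.1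
  let eJ : (Σ _ : Fin (D.c + 1), ℤ) → ℕ := fun q =>
    ((q.2 + D.sh ε m + t q.1) % (n : ℤ)).toNat
  -- the leading combination of characters is small
  have hsmall : ∀ a : Coef p n, ‖∑ q ∈ J, uJ q * D.ι (a ^ p ^ eJ q)‖ < r := by
    intro a
    obtain ⟨τ, hτT, hτA⟩ := hτ a
    set main : Fin (D.c + 1) → D.K := fun i =>
      ∑ κ ∈ Finset.Icc (D.lo i ε) (D.hi i ε), D.ξ i ε m κ * D.ι (chi p n (κ + D.sh ε m) a) with hmain
    set Δ : Fin (D.c + 1) → D.K := fun i =>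
      τ ⟨D.T i, Subring.subset_closure (Or.inr ⟨i, rfl⟩)⟩ - D.T i with hΔ
    have hΔB : ∀ i, ‖Δ i‖ ≤ D.B i ε m := fun i => by
      rw [show Δ i = (Δ i - main i) + main i by ring]
      refine norm_add_le' (hτT i).le
        (IsUltrametricDist.norm_sum_le_of_forall_le_of_nonneg (D.B_pos _ _ _).le fun κ hκ => ?_)
      rw [norm_mul]
      exact (mul_le_of_le_one_right (norm_nonneg _) (norm_map_coef_le _ _)).trans
        (hξ i κ (Finset.mem_Icc.1 hκ).1 (Finset.mem_Icc.1 hκ).2)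
    -- the two sources of error
    obtain ⟨j₁, -, hj₁⟩ := Finset.exists_max_image (Finset.univ : Finset (Fin (D.c + 1)))
      (fun j => D.B j ε m) Finset.univ_nonempty
    obtain ⟨j₂, hj₂U, hj₂⟩ := Finset.exists_max_image U (fun i => D.B i ε m ^ p ^ t i) hUne
    set δ₁ := max (Real.exp (C₀ - D.scale m * D.γ ε)) (D.B j₁ ε m) with hδ₁
    have hδ₁0 : 0 ≤ δ₁ := le_max_of_le_left (Real.exp_nonneg _)
    have hδ₁1 : δ₁ ≤ 1 := max_le hC1 (hB j₁).1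
    have h1 : ‖eval (D.T + Δ) Q‖ < r := by
      refine ((norm_eval_transport D hQ τ hδ₁0 hδ₁1 (norm_transport_sub_le D τ hδ₁0 hδ₁1
        (fun y hy => (hτA y hy).trans (le_max_left _ _))
        fun i => (hΔB i).trans ((hj₁ i (Finset.mem_univ i)).trans (le_max_right _ _)))).trans_lt ?_)
      refine lt_of_lt_of_le ?_ hφr
      rcases max_choice (Real.exp (C₀ - D.scale m * D.γ ε)) (D.B j₁ ε m) with h | h <;> rw [hδ₁, h]
      exacts [hC2, (hB j₁).2]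
    have h2 : ‖eval (D.T + Δ) Q - ∑ i, g i * Δ i ^ p ^ t i‖ < r := by
      refine (hexp Δ (D.B j₂ ε m ^ p ^ t j₂) (pow_nonneg (D.B_pos _ _ _).le _)
        (pow_le_one₀ (D.B_pos _ _ _).le (hB j₂).1) fun i hi => ?_).trans_lt
        ((hB2 j₂ (Finset.mem_filter.1 hj₂U).2).trans_le hφr)
      exact (pow_le_pow_left₀ (norm_nonneg _) (hΔB i) _).trans (hj₂ i (by simpa [hU] using hi))
    have h3 : ‖∑ i, g i * Δ i ^ p ^ t i‖ < r := by
      rw [← sub_sub_cancel (eval (D.T + Δ) Q) (∑ i, g i * Δ i ^ p ^ t i), sub_eq_add_neg]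
      exact norm_add_lt' h1 (by rwa [norm_neg])
    have e : ∑ q ∈ J, uJ q * D.ι (a ^ p ^ eJ q) = ∑ i ∈ S, g i * main i ^ p ^ t i := by
      rw [Finset.sum_sigma]
      refine Finset.sum_congr rfl fun i _ => ?_
      rw [hmain, sum_pow_char_pow, Finset.mul_sum]
      refine Finset.sum_congr rfl fun κ _ => ?_
      simp only [uJ, eJ, mul_pow, ← map_pow, chi_pow hn]
      ring
    rw [e, show (∑ i ∈ S, g i * main i ^ p ^ t i) = (∑ i, g i * Δ i ^ p ^ t i)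
        + (-∑ i ∈ Finset.univ \ S, g i * Δ i ^ p ^ t i)
        + (-∑ i ∈ S, g i * (Δ i - main i) ^ p ^ t i) by
      rw [← Finset.sum_sdiff (Finset.subset_univ S)]
      simp only [sub_pow_char_pow, mul_sub, Finset.sum_sub_distrib]
      ring]
    refine norm_add_lt' (norm_add_lt' h3 ?_) ?_ <;> rw [norm_neg] <;>
      refine norm_sum_lt' _ _ hr0 fun i hi => ?_ <;> rw [norm_mul, norm_pow]
    · by_cases hgi : g i = 0
      · simpa [hgi] using hr0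
      refine lt_of_le_of_lt ?_ ((hout i hgi fun h => ?_).trans_le hφr)
      · exact mul_le_mul_of_nonneg_left (pow_le_pow_left₀ (norm_nonneg _) (hΔB i) _) (norm_nonneg _)
      · exact (Finset.mem_sdiff.1 hi).2
          (Finset.mem_filter.2 ⟨by simpa [hU] using hgi, h⟩)
    · refine lt_of_lt_of_le ?_ (hmax i hi)
      exact mul_lt_mul_of_pos_left
        (pow_lt_pow_left₀ (hτT i) (norm_nonneg _) (pow_ne_zero _ (Fact.out : p.Prime).ne_zero))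
        (norm_pos_iff.2 (hS i hi).1)
  have hsep := fun e₀ he₀ =>
    separate hn D.ι J uJ eJ (fun q _ => toNat_emod_lt hn _) hr0 hsmall e₀ he₀
  -- rows meeting at one exponent
  have hmeet : ∀ i ∈ S, ∀ κ, D.lo i ε ≤ κ → κ ≤ D.hi i ε → ∀ q ∈ J, eJ q = eJ ⟨i, κ⟩ →
      (q.1 = i → q = ⟨i, κ⟩) ∧ (q.1 ≠ i → (i = D.a₀ ∧ q.1 = D.b₀) ∨ (i = D.b₀ ∧ q.1 = D.a₀)) := by
    intro i hi κ hκ hκ' q hq he
    obtain ⟨hq1, hq2⟩ := Finset.mem_sigma.1 hq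
    obtain ⟨hl, hu⟩ := Finset.mem_Icc.1 hq2
    have hd : (n : ℤ) ∣ q.2 + t q.1 - (κ + t i) := by
      have := dvd_of_exp_eq hn he
      rwa [show q.2 + D.sh ε m + t q.1 - (κ + D.sh ε m + t i)
        = q.2 + t q.1 - (κ + t i) by ring] at this
    constructor
    · intro h
      obtain ⟨j, κ'⟩ := q
      simp only at h
      subst h
      obtain rfl : κ' = κ := eq_of_dvd_window (D.hi_lt j ε) hl hu hκ hκ' (by simpa using hd)
      rfl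
    · intro h
      by_contra hcon
      push Not at hcon
      exact D.disjoint i q.1 (Ne.symm h) (fun hh => hcon.1 hh.1 hh.2) (fun hh => hcon.2 hh.1 hh.2)
        ε (t i) (t q.1) ((hS i hi).2.trans (hS q.1 hq1).2.symm) κ q.2 hκ hκ' hl hu
        (by rw [← dvd_neg, neg_sub]; exact hd)
  -- the largest row belongs to the pair
  set q₀ : (Σ _ : Fin (D.c + 1), ℤ) := ⟨i₀, D.lo i₀ ε⟩ with hq₀
  have hq₀J : q₀ ∈ J.filter fun q => eJ q = eJ q₀ :=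
    Finset.mem_filter.2 ⟨Finset.mem_sigma.2
      ⟨hi₀, Finset.mem_Icc.2 ⟨le_rfl, D.lo_le_hi _ _⟩⟩, rfl⟩
  have hu₀ : ‖uJ q₀‖ = r := by
    simp only [uJ, hq₀, norm_mul, norm_pow, hr, (hξe i₀).1]
  obtain ⟨q₁, hq₁J, hq₁ne, hq₁r⟩ : ∃ q ∈ J.filter (fun q => eJ q = eJ q₀), q ≠ q₀ ∧ r ≤ ‖uJ q‖ := by
    by_contra hcon
    push Not at hcon
    have h := hsep (eJ q₀) (toNat_emod_lt hn _)
    rw [← Finset.add_sum_erase _ _ hq₀J] at h
    have hrest : ‖∑ q ∈ (J.filter fun q => eJ q = eJ q₀).erase q₀, uJ q‖ < r :=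
      norm_sum_lt' _ _ hr0 fun q hq =>
        hcon q (Finset.mem_of_mem_erase hq) (Finset.ne_of_mem_erase hq)
    rw [IsUltrametricDist.norm_add_eq_max_of_norm_ne_norm (by rw [hu₀]; exact hrest.ne'), hu₀,
      max_eq_left hrest.le] at h
    exact lt_irrefl r h
  obtain ⟨hq₁J, hq₁e⟩ := Finset.mem_filter.1 hq₁J
  obtain ⟨hq₁1, hq₁2⟩ := Finset.mem_sigma.1 hq₁J
  obtain ⟨hsame, hdiff⟩ := hmeet i₀ hi₀ _ le_rfl (D.lo_le_hi _ _) q₁ hq₁J hq₁e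
  have hne₁ : q₁.1 ≠ i₀ := fun h => hq₁ne (hsame h)
  have hab : D.a₀ ≠ D.b₀ := fun h => hne₁ (by
    rcases hdiff hne₁ with ⟨h1, h2⟩ | ⟨h1, h2⟩
    · rw [h2, h1, h]
    · rw [h2, h1, h])
  have hnorm₁ : ‖g q₁.1‖ * D.B q₁.1 ε m ^ p ^ t q₁.1 = r := by
    refine le_antisymm (hmax q₁.1 hq₁1) (hq₁r.trans ?_)
    simp only [uJ, norm_mul, norm_pow]
    exact mul_le_mul_of_nonneg_left (pow_le_pow_left₀ (norm_nonneg _)
      (hξ q₁.1 q₁.2 (Finset.mem_Icc.1 hq₁2).1 (Finset.mem_Icc.1 hq₁2).2) _) (norm_nonneg _)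
  have hboth : D.a₀ ∈ S ∧ D.b₀ ∈ S ∧ ‖g D.a₀‖ * D.B D.a₀ ε m ^ p ^ t D.a₀ = r ∧
      ‖g D.b₀‖ * D.B D.b₀ ε m ^ p ^ t D.b₀ = r := by
    rcases hdiff hne₁ with ⟨h1, h2⟩ | ⟨h1, h2⟩ <;> rw [← h1, ← h2]
    · exact ⟨hi₀, hq₁1, rfl, hnorm₁⟩
    · exact ⟨hq₁1, hi₀, hnorm₁, rfl⟩
  obtain ⟨haS, hbS, hra, hrb⟩ := hboth
  have ht : t D.a₀ = t D.b₀ := by
    have h := (hS _ haS).2.trans (hS _ hbS).2.symm
    rw [D.pair_w hab ε] at h
    exact Nat.pow_right_injective (Fact.out : p.Prime).two_le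
      (by exact_mod_cast mul_right_cancel₀ (D.w_pos _ _).ne' h)
  have hgn : ‖g D.b₀‖ = ‖g D.a₀‖ := by
    have h := hrb.trans hra.symm
    rw [← ht, ← D.pair_B hab] at h
    exact mul_right_cancel₀ (pow_ne_zero _ (D.B_pos _ _ _).ne') h
  refine ⟨hab, ht, hgn, fun κ hκ hκl hκu => ?_⟩
  rw [hra]
  have hκa : D.lo D.a₀ ε ≤ κ ∧ κ ≤ D.hi D.a₀ ε := by
    rcases hκ with rfl | rfl
    exacts [⟨le_rfl, D.lo_le_hi _ _⟩, ⟨D.lo_le_hi _ _, le_rfl⟩]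
  have hJa : (⟨D.a₀, κ⟩ : Σ _ : Fin (D.c + 1), ℤ) ∈ J :=
    Finset.mem_sigma.2 ⟨haS, Finset.mem_Icc.2 hκa⟩
  have hJb : (⟨D.b₀, κ⟩ : Σ _ : Fin (D.c + 1), ℤ) ∈ J :=
    Finset.mem_sigma.2 ⟨hbS, Finset.mem_Icc.2 ⟨hκl, hκu⟩⟩
  have heb : eJ ⟨D.b₀, κ⟩ = eJ ⟨D.a₀, κ⟩ := by simp only [eJ, ht]
  have hset : (J.filter fun q => eJ q = eJ ⟨D.a₀, κ⟩)
      = {(⟨D.a₀, κ⟩ : Σ _ : Fin (D.c + 1), ℤ), ⟨D.b₀, κ⟩} := by
    ext q
    simp only [Finset.mem_filter, Finset.mem_insert, Finset.mem_singleton]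
    refine ⟨fun ⟨hq, he⟩ => ?_, ?_⟩
    · obtain ⟨h1, h2⟩ := hmeet D.a₀ haS κ hκa.1 hκa.2 q hq he
      by_cases h : q.1 = D.a₀
      · exact Or.inl (h1 h)
      rcases h2 h with ⟨-, hb⟩ | ⟨ha, -⟩
      · obtain ⟨h3, -⟩ := hmeet D.b₀ hbS κ hκl hκu q hq (he.trans heb.symm)
        exact Or.inr (h3 hb)
      · exact absurd ha hab
    · rintro (rfl | rfl)
      exacts [⟨hJa, rfl⟩, ⟨hJb, heb⟩]
  have h := hsep (eJ ⟨D.a₀, κ⟩) (toNat_emod_lt hn _)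
  rw [hset, Finset.sum_pair (by simp [hab])] at h
  simpa only [uJ, ← ht] using h

end Vale.Agent.P217.Engine
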