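import Vale.Agent.P217.Base

/-!
# P217 module G: first order expansion, separation of characters, residues
-/

noncomputable section

namespace Vale.Agent.P217.Engine

open MvPolynomial

variable {p n : ℕ} [Fact p.Prime] {K : Type} [NormedField K] [IsUltrametricDist K]

theorem norm_add_le' {a b : K} {r : ℝ} (ha : ‖a‖ ≤ r) (hb : ‖b‖ ≤ r) : ‖a + b‖ ≤ r :=
  (IsUltrametricDist.norm_add_le_max a b).trans (max_le ha hb)

theorem norm_sub_le' {a b : K} {r : ℝ} (ha : ‖a‖ ≤ r) (hb : ‖b‖ ≤ r) : ‖a - b‖ ≤ r := by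
  rw [sub_eq_add_neg]
  exact norm_add_le' ha (by rwa [norm_neg])

theorem norm_add_lt' {a b : K} {r : ℝ} (ha : ‖a‖ < r) (hb : ‖b‖ < r) : ‖a + b‖ < r :=
  (IsUltrametricDist.norm_add_le_max a b).trans_lt (max_lt ha hb)

omit [IsUltrametricDist K] in
theorem norm_mul_le_one {a b : K} (ha : ‖a‖ ≤ 1) (hb : ‖b‖ ≤ 1) : ‖a * b‖ ≤ 1 := by
  rw [norm_mul]
  exact mul_le_one₀ ha (norm_nonneg _) hb

theorem norm_sum_lt' {ι : Type} (s : Finset ι) (f : ι → K) {r : ℝ} (hr : 0 < r)
    (h : ∀ i ∈ s, ‖f i‖ < r) : ‖∑ i ∈ s, f i‖ < r := by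
  classical
  induction s using Finset.induction_on with
  | empty => simpa using hr
  | insert a t ha ih =>
    rw [Finset.sum_insert ha]
    exact norm_add_lt' (h a (Finset.mem_insert_self _ _))
      (ih fun i hi => h i (Finset.mem_insert_of_mem hi))

variable {σ : Type}

theorem norm_eval_le {Q : MvPolynomial σ K} (hQ : ∀ α, ‖coeff α Q‖ ≤ 1) {x : σ → K}
    (hx : ∀ i, ‖x i‖ ≤ 1) : ‖eval x Q‖ ≤ 1 := by
  rw [eval_eq]
  refine IsUltrametricDist.norm_sum_le_of_forall_le_of_nonneg zero_le_one fun α _ => ?_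
  refine norm_mul_le_one (hQ α) ?_
  rw [norm_prod]
  exact Finset.prod_le_one (fun i _ => norm_nonneg _) fun i _ => by
    rw [norm_pow]; exact pow_le_one₀ (norm_nonneg _) (hx i)

/-- The first order expansion of a monomial, up to the square of the increment. -/
theorem exists_taylor_monomial [Fintype σ] [DecidableEq σ] (Y E : σ → K) (hY : ∀ i, ‖Y i‖ ≤ 1)
    {δ : ℝ} (hδ0 : 0 ≤ δ) (hδ1 : δ ≤ 1) (hE : ∀ i, ‖E i‖ ≤ δ) (β : σ →₀ ℕ) :
    ‖eval (Y + E) (monomial β (1 : K)) - eval Y (monomial β (1 : K))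
      - ∑ i, eval Y (pderiv i (monomial β (1 : K))) * E i‖ ≤ δ ^ 2 := by
  suffices h : ∀ β : σ →₀ ℕ, (∀ i, ‖eval Y (pderiv i (monomial β (1 : K)))‖ ≤ 1) ∧
      ‖eval (Y + E) (monomial β (1 : K)) - eval Y (monomial β (1 : K))
        - ∑ i, eval Y (pderiv i (monomial β (1 : K))) * E i‖ ≤ δ ^ 2 from (h β).2
  intro β
  induction β using Finsupp.induction₂ with
  | zero => simp [sq_nonneg]
  | add_single a b f ha hb ih =>
    clear ha hb
    induction b with
    | zero => simpa using ih
    | succ b ihb =>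
      set Q : MvPolynomial σ K := monomial (f + Finsupp.single a b) 1 with hQ
      obtain ⟨hg, hr⟩ := ihb
      have e : monomial (f + Finsupp.single a (b + 1)) (1 : K) = Q * X a := by
        rw [hQ, X, monomial_mul, mul_one, add_assoc, ← Finsupp.single_add]
      have hval : ‖eval Y Q‖ ≤ 1 := norm_eval_le (fun α => by
        rw [hQ, coeff_monomial]; split_ifs <;> simp) hY
      have hd : ∀ i, eval Y (pderiv i (Q * X a))
          = eval Y (pderiv i Q) * Y a + eval Y Q * (if i = a then 1 else 0) := fun i => by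
        rw [pderiv_mul, map_add, map_mul, map_mul, eval_X, pderiv_X]
        simp only [Pi.single_apply, apply_ite (eval Y), map_one, map_zero]
        by_cases h : i = a
        · subst h; simp
        · simp [h, Ne.symm h]
      rw [e]
      refine ⟨fun i => ?_, ?_⟩
      · rw [hd]
        refine norm_add_le' (norm_mul_le_one (hg i) (hY a)) (norm_mul_le_one hval ?_)
        split_ifs <;> simp
      set L := ∑ i, eval Y (pderiv i Q) * E i with hL
      have hL1 : ‖L‖ ≤ δ := IsUltrametricDist.norm_sum_le_of_forall_le_of_nonneg hδ0 fun i _ => by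
        rw [norm_mul]
        exact (mul_le_of_le_one_left (norm_nonneg _) (hg i)).trans (hE i)
      have hsum : ∑ i, eval Y (pderiv i (Q * X a)) * E i = L * Y a + eval Y Q * E a := by
        simp only [hd, add_mul, Finset.sum_add_distrib, hL, Finset.sum_mul]
        congr 1
        · exact Finset.sum_congr rfl fun i _ => by ring
        · simp
      rw [hsum, map_mul, map_mul, eval_X, eval_X, Pi.add_apply]
      have e2 : eval (Y + E) Q * (Y a + E a) - eval Y Q * Y a - (L * Y a + eval Y Q * E a)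
          = (eval (Y + E) Q - eval Y Q - L) * (Y a + E a) + L * E a := by ring
      rw [e2]
      refine norm_add_le' ?_ ?_ <;> rw [norm_mul]
      · exact (mul_le_of_le_one_right (norm_nonneg _)
          (norm_add_le' (hY a) ((hE a).trans hδ1))).trans hr
      · rw [pow_two]; exact mul_le_mul hL1 (hE a) (norm_nonneg _) hδ0

/-- The first order expansion of a polynomial with integral coefficients. -/
theorem norm_taylor_le [Fintype σ] [DecidableEq σ] {Q : MvPolynomial σ K}
    (hQ : ∀ α, ‖coeff α Q‖ ≤ 1) (Y E : σ → K) (hY : ∀ i, ‖Y i‖ ≤ 1) {δ : ℝ} (hδ0 : 0 ≤ δ)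
    (hδ1 : δ ≤ 1) (hE : ∀ i, ‖E i‖ ≤ δ) :
    ‖eval (Y + E) Q - eval Y Q - ∑ i, eval Y (pderiv i Q) * E i‖ ≤ δ ^ 2 := by
  have e : eval (Y + E) Q - eval Y Q - ∑ i, eval Y (pderiv i Q) * E i
      = ∑ α ∈ Q.support, coeff α Q * (eval (Y + E) (monomial α (1 : K))
        - eval Y (monomial α (1 : K)) - ∑ i, eval Y (pderiv i (monomial α (1 : K))) * E i) := by
    have hm : ∀ (α : σ →₀ ℕ) (r : K), monomial α r = C r * monomial α (1 : K) := fun α r => by
      rw [C_mul_monomial, mul_one]
    conv_lhs => rw [Q.as_sum]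
    simp only [map_sum, Finset.sum_mul]
    rw [Finset.sum_comm (s := (Finset.univ : Finset σ)), ← Finset.sum_sub_distrib,
      ← Finset.sum_sub_distrib]
    refine Finset.sum_congr rfl fun α _ => ?_
    rw [hm α (coeff α Q)]
    simp only [map_mul, eval_C, pderiv_C_mul, mul_sub, Finset.mul_sum, mul_assoc]
  rw [e]
  refine IsUltrametricDist.norm_sum_le_of_forall_le_of_nonneg (sq_nonneg δ) fun α _ => ?_
  rw [norm_mul]
  exact (mul_le_of_le_one_left (norm_nonneg _) (hQ α)).trans
    (exists_taylor_monomial Y E hY hδ0 hδ1 hE α)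

omit [IsUltrametricDist K] in
/-- Nonzero elements of a finite field have norm one. -/
theorem norm_map_coef (ι : Coef p n →+* K) {a : Coef p n} (ha : a ≠ 0) : ‖ι a‖ = 1 := by
  have : Fintype (Coef p n) := Fintype.ofFinite _
  have h : ι a ^ (Fintype.card (Coef p n) - 1) = 1 := by
    rw [← map_pow, FiniteField.pow_card_sub_one_eq_one a ha, map_one]
  have h2 := congrArg norm h
  rw [norm_pow, norm_one] at h2
  exact (pow_eq_one_iff_of_nonneg (norm_nonneg _)
    (Nat.sub_ne_zero_of_lt Fintype.one_lt_card)).1 h2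

omit [IsUltrametricDist K] in
theorem norm_map_coef_le (ι : Coef p n →+* K) (a : Coef p n) : ‖ι a‖ ≤ 1 := by
  by_cases ha : a = 0
  · simp [ha]
  · exact (norm_map_coef ι ha).le

/-- The powers `a ↦ a ^ p ^ k`, `k < n`, are distinct. -/
theorem pow_inj (hn : 1 ≤ n) {r r' : ℕ} (hr : r < n) (hr' : r' < n)
    (h : ∀ a : Coef p n, a ≠ 0 → a ^ p ^ r = a ^ p ^ r') : r = r' := by
  wlog hle : r' ≤ r generalizing r r'
  · exact (this hr' hr (fun a ha => (h a ha).symm) (le_of_not_ge hle)).symm
  by_contra hne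
  have : Fintype (Coef p n) := Fintype.ofFinite _
  have hk : r - r' ≠ 0 := by omega
  set k := r - r'
  have hfix : ∀ a : Coef p n, a ^ p ^ k = a := fun a => by
    by_cases ha : a = 0
    · rw [ha, zero_pow (pow_ne_zero _ (Fact.out : p.Prime).ne_zero)]
    · refine iterateFrobenius_inj (Coef p n) p r' ?_
      rw [iterateFrobenius_def, iterateFrobenius_def, ← pow_mul, ← pow_add,
        show k + r' = r by omega]
      exact h a ha
  have hp := (Fact.out : p.Prime).one_lt
  have hP : ((Polynomial.X ^ p ^ k - Polynomial.X : Polynomial (Coef p n))) ≠ 0 :=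
    FiniteField.X_pow_card_pow_sub_X_ne_zero (Coef p n) hk hp
  have hsub : (Finset.univ : Finset (Coef p n)).val ⊆
      (Polynomial.X ^ p ^ k - Polynomial.X : Polynomial (Coef p n)).roots := fun a _ => by
    rw [Polynomial.mem_roots hP]
    simp [hfix a]
  have hcard := (Polynomial.card_le_degree_of_subset_roots hsub)
  rw [FiniteField.X_pow_card_pow_sub_X_natDegree_eq (Coef p n) hk hp, Finset.card_univ,
    ← Nat.card_eq_fintype_card, GaloisField.card p n (by omega)] at hcard
  have : p ^ k < p ^ n := Nat.pow_lt_pow_right hp (by omega)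
  omega

/-- A combination of characters which is small everywhere has small coefficients. -/
theorem separate (hn : 1 ≤ n) (ι : Coef p n →+* K) {J : Type} (s : Finset J) (u : J → K)
    (e : J → ℕ) (he : ∀ j ∈ s, e j < n) {r : ℝ} (hr : 0 < r)
    (h : ∀ a : Coef p n, ‖∑ j ∈ s, u j * ι (a ^ p ^ e j)‖ < r) (e₀ : ℕ) (he₀ : e₀ < n) :
    ‖∑ j ∈ s with e j = e₀, u j‖ < r := by
  classical
  have : Fintype (Coef p n) := Fintype.ofFinite _
  set lam : (Coef p n)ˣ → K := fun a => ι (((a⁻¹ : (Coef p n)ˣ) : Coef p n) ^ p ^ e₀)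
  have key : ∀ j ∈ s, ∑ a : (Coef p n)ˣ, lam a * ι ((a : Coef p n) ^ p ^ e j)
      = if e j = e₀ then -1 else 0 := by
    intro j hj
    let φ : (Coef p n)ˣ →* Coef p n :=
      { toFun := fun a => ((a⁻¹ : (Coef p n)ˣ) : Coef p n) ^ p ^ e₀ * (a : Coef p n) ^ p ^ e j
        map_one' := by simp
        map_mul' := fun a b => by simp only [mul_inv, Units.val_mul, mul_pow]; ring }
    have hs : ∑ a : (Coef p n)ˣ, lam a * ι ((a : Coef p n) ^ p ^ e j) = ι (∑ a, φ a) := by
      rw [map_sum]
      exact Finset.sum_congr rfl fun a _ => (map_mul ι _ _).symm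
    rw [hs, sum_hom_units]
    by_cases hj0 : e j = e₀
    · have h1 : φ = 1 := MonoidHom.ext fun a => by
        show ((a⁻¹ : (Coef p n)ˣ) : Coef p n) ^ p ^ e₀ * (a : Coef p n) ^ p ^ e j = 1
        rw [hj0, ← mul_pow, Units.inv_mul, one_pow]
      rw [if_pos h1, if_pos hj0, Fintype.card_units,
        Nat.cast_sub (Nat.one_le_iff_ne_zero.2 Fintype.card_ne_zero), FiniteField.cast_card_eq_zero]
      simp
    · have h1 : φ ≠ 1 := fun h1 => hj0 (pow_inj hn (he j hj) he₀ fun a ha => by
        have h2 : ((a⁻¹ : Coef p n)) ^ p ^ e₀ * a ^ p ^ e j = 1 := by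
          have := DFunLike.congr_fun h1 (Units.mk0 a ha)
          simpa [φ] using this
        rw [inv_pow, inv_mul_eq_one₀ (pow_ne_zero _ ha)] at h2
        exact h2.symm)
      rw [if_neg h1, if_neg hj0]
      simp
  have e1 : ∑ a : (Coef p n)ˣ, lam a * ∑ j ∈ s, u j * ι ((a : Coef p n) ^ p ^ e j)
      = -∑ j ∈ s with e j = e₀, u j := by
    simp only [Finset.mul_sum]
    rw [Finset.sum_comm, Finset.sum_filter, ← Finset.sum_neg_distrib]
    refine Finset.sum_congr rfl fun j hj => ?_
    simp only [mul_left_comm (lam _), ← Finset.mul_sum]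
    rw [key j hj]
    split_ifs <;> simp
  rw [← norm_neg, ← e1]
  refine norm_sum_lt' _ _ hr fun a _ => ?_
  rw [norm_mul]
  exact (mul_le_of_le_one_left (norm_nonneg _) (norm_map_coef_le ι _)).trans_lt (h _)

omit [IsUltrametricDist K] in
/-- An element at distance one from the prime field is not a fixed point of Frobenius modulo
the maximal ideal. -/
theorem norm_pow_sub_self [CharP K p] {μ : K} (h : ∀ j : ℕ, ‖μ - (j : K)‖ = 1) :
    ‖μ ^ p - μ‖ = 1 := by
  have e : (Polynomial.X ^ p - Polynomial.X : Polynomial (ZMod p))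
      = ∏ a : ZMod p, (Polynomial.X - Polynomial.C a) := by
    have hr := FiniteField.roots_X_pow_card_sub_X (ZMod p)
    rw [ZMod.card] at hr
    have hp := (Fact.out : p.Prime).one_lt
    have hm : (Polynomial.X ^ p - Polynomial.X : Polynomial (ZMod p)).Monic :=
      Polynomial.monic_X_pow_sub (by rw [Polynomial.degree_X]; exact_mod_cast hp)
    have hc : (Polynomial.X ^ p - Polynomial.X : Polynomial (ZMod p)).roots.card
        = (Polynomial.X ^ p - Polynomial.X : Polynomial (ZMod p)).natDegree := by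
      rw [hr, FiniteField.X_pow_card_sub_X_natDegree_eq _ hp]
      simp
    have := Polynomial.prod_multiset_X_sub_C_of_monic_of_roots_card_eq hm hc
    rw [hr] at this
    exact this.symm
  have e2 := congrArg (Polynomial.eval₂ (ZMod.castHom (dvd_refl p) K) μ) e
  simp only [Polynomial.eval₂_sub, Polynomial.eval₂_pow, Polynomial.eval₂_X,
    Polynomial.eval₂_finsetProd, Polynomial.eval₂_C] at e2
  rw [e2, norm_prod]
  refine Finset.prod_eq_one fun a _ => ?_
  rw [← ZMod.natCast_zmod_val a, map_natCast]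
  exact h _

end Vale.Agent.P217.Engine
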