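import Vale.Agent.P217.Core.Engine.Rel
import Vale.Agent.P217.Core.Engine.Norm

/-!
# P217 module G: a relation of least degree and its first order expansion
-/

noncomputable section

namespace Vale.Agent.P217.Engine

open MvPolynomial

variable {p : ℕ} [Fact p.Prime] {K : Type} [NormedField K] [IsUltrametricDist K] [CharP K p]
variable {σ : Type} [Fintype σ]

omit [IsUltrametricDist K] in
theorem natCast_pow_char_pow (b M : ℕ) : ((b : K)) ^ p ^ M = (b : K) := by
  rw [← iterateFrobenius_def, map_natCast]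

/-- A relation of least degree: in suitable `p`-th powers of the rows its first order terms do not
vanish. -/
theorem exists_reduced {R : Subring K} (hR : ∀ z ∈ R, ‖z‖ ≤ 1) {T : σ → K}
    (hT : ∀ i, ‖T i‖ ≤ 1) {M M' : ℕ}
    (hex : ∃ Q, IsRel R T M M' p Q) :
    ∃ (Q : MvPolynomial σ K) (t : σ → ℕ) (g : σ → K), IsRel R T M M' p Q ∧
      (∀ i, g i ≠ 0 → t i < M') ∧ (∃ i, g i ≠ 0) ∧
      ∀ (Δ : σ → K) (δ : ℝ), 0 ≤ δ → δ ≤ 1 → (∀ i, g i ≠ 0 → ‖Δ i‖ ^ p ^ t i ≤ δ) →
        ‖eval (T + Δ) Q - ∑ i, g i * Δ i ^ p ^ t i‖ ≤ δ ^ 2 := by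
  classical
  have hp := (Fact.out : p.Prime)
  obtain ⟨Q, hQ, hmin⟩ : ∃ Q, IsRel R T M M' p Q ∧
      ∀ D, IsRel R T M M' p D → ¬ D.totalDegree < Q.totalDegree := by
    have h : ∃ d, ∃ Q, IsRel R T M M' p Q ∧ Q.totalDegree = d :=
      ⟨_, _, hex.choose_spec, rfl⟩
    obtain ⟨Q, hQ, hd⟩ := Nat.find_spec h
    exact ⟨Q, hQ, fun D hD hlt => Nat.find_min h (hd ▸ hlt) ⟨D, hD, rfl⟩⟩
  let U : σ → Prop := fun i => ∃ α ∈ Q.support, α i ≠ 0
  have hUt : ∀ i, U i → ∃ t, ∃ α ∈ Q.support, α i ≠ 0 ∧ ¬ p ^ (t + 1) ∣ α i := fun i ⟨α, hα, h0⟩ =>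
    ⟨α i, α, hα, h0, fun hd => absurd (Nat.le_of_dvd (Nat.pos_of_ne_zero h0) hd)
      (not_le.2 ((Nat.lt_succ_self _).trans (Nat.lt_pow_self hp.one_lt)))⟩
  let t : σ → ℕ := fun i => if h : U i then Nat.find (hUt i h) else 0
  have hdvd : ∀ i, ∀ α ∈ Q.support, p ^ t i ∣ α i := fun i α hα => by
    by_cases h0 : α i = 0
    · rw [h0]; exact dvd_zero _
    have hi : U i := ⟨α, hα, h0⟩
    simp only [t, dif_pos hi]
    rcases Nat.eq_zero_or_pos (Nat.find (hUt i hi)) with h | h
    · rw [h, pow_zero]; exact one_dvd _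
    · by_contra hnd
      exact Nat.find_min (hUt i hi) (Nat.sub_one_lt h.ne')
        ⟨α, hα, h0, by rwa [Nat.sub_add_cancel h]⟩
  let β : (σ →₀ ℕ) → (σ →₀ ℕ) := fun α =>
    Finsupp.equivFunOnFinite.symm fun i => α i / p ^ t i
  have hβ : ∀ α ∈ Q.support, ∀ i, p ^ t i * β α i = α i := fun α hα i =>
    Nat.mul_div_cancel' (hdvd i α hα)
  have hwit : ∀ i, U i → ∃ α ∈ Q.support, ¬ p ∣ β α i := fun i hi => by
    obtain ⟨α, hα, -, hnd⟩ := Nat.find_spec (hUt i hi)
    refine ⟨α, hα, fun hd => hnd ?_⟩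
    rw [← hβ α hα i, pow_succ]
    simp only [t, dif_pos hi]
    exact mul_dvd_mul_left _ hd
  let Q' : MvPolynomial σ K := ∑ α ∈ Q.support, monomial (β α) (coeff α Q)
  have hprod : ∀ (x : σ → K) (a : σ →₀ ℕ) (r : K), eval x (monomial a r) = r * ∏ i, x i ^ a i :=
    fun x a r => by rw [eval_monomial, Finsupp.prod_fintype _ _ fun i => pow_zero _]
  have hev : ∀ x : σ → K, eval (fun i => x i ^ p ^ t i) Q' = eval x Q := fun x => by
    conv_rhs => rw [Q.as_sum]
    simp only [Q', map_sum, hprod]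
    refine Finset.sum_congr rfl fun α hα => ?_
    congr 1
    exact Finset.prod_congr rfl fun i _ => by rw [← pow_mul, hβ α hα i]
  set Y : σ → K := fun i => T i ^ p ^ t i with hY
  set g : σ → K := fun i => eval Y (pderiv i Q') with hg
  have hg0 : ∀ i, ¬ U i → g i = 0 := fun i hi => by
    simp only [hg, Q', map_sum, pderiv_monomial]
    refine Finset.sum_eq_zero fun α hα => ?_
    have : α i = 0 := by_contra fun h => hi ⟨α, hα, h⟩
    simp [β, this]
  have hg1 : ∀ i, U i → g i ≠ 0 := fun i hi => by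
    let D : MvPolynomial σ K :=
      ∑ α ∈ Q.support, monomial (α - Finsupp.single i (p ^ t i)) (coeff α Q * (β α i : K))
    have hgD : g i = eval T D := by
      simp only [hg, D, Q', map_sum, pderiv_monomial, hprod]
      refine Finset.sum_congr rfl fun α hα => ?_
      rcases Nat.eq_zero_or_pos (β α i) with h | h
      · simp [h]
      congr 1
      refine Finset.prod_congr rfl fun l _ => ?_
      simp only [Finsupp.tsub_apply, Finsupp.single_apply, hY, ← pow_mul]
      by_cases hl : i = l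
      · subst hl
        rw [if_pos rfl, if_pos rfl, Nat.mul_sub, hβ α hα i, mul_one]
      · rw [if_neg hl, if_neg hl, Nat.sub_zero, Nat.sub_zero, hβ α hα l]
    have hcD : ∀ a, coeff a D = ∑ α ∈ Q.support with α - Finsupp.single i (p ^ t i) = a,
        coeff α Q * (β α i : K) := fun a => by
      simp only [D, coeff_sum, coeff_monomial]
      rw [← Finset.sum_filter]
    have hsupp : ∀ a ∈ D.support, ∃ α ∈ Q.support,
        p ^ t i ≤ α i ∧ a = α - Finsupp.single i (p ^ t i) := fun a ha => by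
      rw [mem_support_iff, hcD] at ha
      obtain ⟨α, hα, hne⟩ := Finset.exists_ne_zero_of_sum_ne_zero ha
      obtain ⟨hα, e⟩ := Finset.mem_filter.1 hα
      refine ⟨α, hα, ?_, e.symm⟩
      rw [← hβ α hα i]
      refine Nat.le_mul_of_pos_right _ (Nat.pos_of_ne_zero fun h => hne ?_)
      rw [h, Nat.cast_zero, mul_zero]
    obtain ⟨α0, hα0, hnd⟩ := hwit i hi
    have hle : p ^ t i ≤ α0 i := by
      rw [← hβ α0 hα0 i]
      exact Nat.le_mul_of_pos_right _ (Nat.pos_of_ne_zero fun h => hnd (h ▸ dvd_zero p))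
    intro hgi
    refine hmin D ⟨fun h0 => ?_, fun a => ?_, fun a ha l => ?_, hgD ▸ hgi⟩ ?_
    · have h1 := congrArg (coeff (α0 - Finsupp.single i (p ^ t i))) h0
      rw [coeff_zero, hcD, Finset.sum_eq_single α0] at h1
      · exact (mul_ne_zero (mem_support_iff.1 hα0)
          fun hc => hnd ((CharP.cast_eq_zero_iff K p _).1 hc)) h1
      · intro α hα hne
        obtain ⟨hα, e⟩ := Finset.mem_filter.1 hα
        rcases Nat.eq_zero_or_pos (β α i) with h | h
        · rw [h, Nat.cast_zero, mul_zero]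
        refine absurd (Finsupp.ext fun l => ?_) hne
        have h2 := DFunLike.congr_fun e l
        simp only [Finsupp.tsub_apply, Finsupp.single_apply] at h2
        by_cases hl : i = l
        · subst hl
          have h3 : p ^ t i ≤ α i := hβ α hα i ▸ Nat.le_mul_of_pos_right _ h
          rw [if_pos rfl] at h2
          omega
        · simpa [hl] using h2
      · exact fun h => absurd hα0 (by simpa using h)
    · choose z hz hz' using hQ.coeff_pow
      refine ⟨∑ α ∈ Q.support with α - Finsupp.single i (p ^ t i) = a, z α * (β α i : K),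
        sum_mem fun α _ => mul_mem (hz α) (natCast_mem R _), ?_⟩
      rw [hcD, sum_pow_char_pow]
      exact Finset.sum_congr rfl fun α _ => by rw [mul_pow, natCast_pow_char_pow, hz']
    · obtain ⟨α, hα, -, rfl⟩ := hsupp a ha
      exact lt_of_le_of_lt (by simp [Finsupp.tsub_apply]) (hQ.deg_lt α hα l)
    · have hsum : ∀ a : σ →₀ ℕ, (a.sum fun _ e => e) = ∑ l, a l := fun a =>
        Finsupp.sum_fintype _ _ fun _ => rfl
      have hpos : 0 < p ^ t i := pow_pos hp.pos _
      have hlt : ∀ α : σ →₀ ℕ, p ^ t i ≤ α i →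
          ∑ l, (α - Finsupp.single i (p ^ t i) : σ →₀ ℕ) l < ∑ l, α l := fun α h =>
        Finset.sum_lt_sum (fun l _ => by simp [Finsupp.tsub_apply])
          ⟨i, Finset.mem_univ i, by simp [Finsupp.tsub_apply]; omega⟩
      rw [totalDegree, totalDegree, Finset.sup_lt_iff]
      · intro a ha
        obtain ⟨α, hα, hle', rfl⟩ := hsupp a ha
        refine lt_of_lt_of_le ?_ (Finset.le_sup (f := fun b : σ →₀ ℕ => b.sum fun _ e => e) hα)
        rw [hsum, hsum]
        exact hlt α hle'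
      · refine lt_of_lt_of_le ?_ (Finset.le_sup (f := fun b : σ →₀ ℕ => b.sum fun _ e => e) hα0)
        rw [hsum]
        exact lt_of_le_of_lt (Nat.zero_le _) (hlt α0 hle)
  refine ⟨Q, t, g, hQ, fun i hi => ?_, ?_, fun Δ δ hδ0 hδ1 hΔ => ?_⟩
  · obtain ⟨α, hα, hnd⟩ := hwit i (by_contra fun h => hi (hg0 i h))
    have hle : p ^ t i ≤ α i := by
      rw [← hβ α hα i]
      exact Nat.le_mul_of_pos_right _ (Nat.pos_of_ne_zero fun h => hnd (h ▸ dvd_zero p))
    exact (Nat.pow_lt_pow_iff_right hp.one_lt).1 (hle.trans_lt (hQ.deg_lt α hα i))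
  · obtain ⟨α, hα, h0⟩ : ∃ α ∈ Q.support, α ≠ 0 := by
      by_contra hcon
      push Not at hcon
      apply hQ.ne_zero
      have e : Q = C (coeff 0 Q) := ext _ _ fun a => by
        rw [coeff_C]
        split_ifs with h
        · rw [h]
        · exact notMem_support_iff.1 fun hm => h (hcon a hm).symm
      have h0 := hQ.eval_eq
      rw [e, eval_C] at h0
      rw [e, h0, map_zero]
    obtain ⟨i, hi⟩ := Finsupp.ne_iff.1 h0
    exact ⟨i, hg1 i ⟨α, hα, by simpa using hi⟩⟩
  set E : σ → K := fun i => if U i then Δ i ^ p ^ t i else 0 with hE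
  have hval : eval (T + Δ) Q = eval (Y + E) Q' := by
    rw [← hev (T + Δ)]
    simp only [Q', map_sum, hprod]
    refine Finset.sum_congr rfl fun α hα => ?_
    congr 1
    refine Finset.prod_congr rfl fun i _ => ?_
    by_cases hi : U i
    · simp only [Pi.add_apply, hY, hE, if_pos hi, add_pow_char_pow]
    · have : α i = 0 := by_contra fun h => hi ⟨α, hα, h⟩
      simp [β, this]
  have hYQ : eval Y Q' = 0 := (hev T).trans hQ.eval_eq
  have hcoef : ∀ a, ‖coeff a Q'‖ ≤ 1 := fun a => by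
    simp only [Q', coeff_sum, coeff_monomial]
    refine IsUltrametricDist.norm_sum_le_of_forall_le_of_nonneg zero_le_one fun α _ => ?_
    split_ifs
    · obtain ⟨z, hz, e⟩ := hQ.coeff_pow α
      rw [e, norm_pow]
      exact pow_le_one₀ (norm_nonneg _) (hR z hz)
    · simp
  have hY1 : ∀ i, ‖Y i‖ ≤ 1 := fun i => by
    simp only [hY, norm_pow]
    exact pow_le_one₀ (norm_nonneg _) (hT i)
  have hE1 : ∀ i, ‖E i‖ ≤ δ := fun i => by
    by_cases hi : U i
    · simp only [hE, if_pos hi, norm_pow]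
      exact hΔ i (hg1 i hi)
    · simp [hE, hi, hδ0]
  have h := norm_taylor_le hcoef Y E hY1 hδ0 hδ1 hE1
  rw [hYQ, sub_zero] at h
  rw [hval]
  convert h using 3
  refine Finset.sum_congr rfl fun i _ => ?_
  by_cases hi : U i
  · simp [hE, hi, hg]
  · rw [hg0 i hi, zero_mul]
    simp [hE, hi]

end Vale.Agent.P217.Engine
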