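import Mathlib

/-!
# P217 module G: relations between the rows with `p ^ M`-th powers as coefficients
-/

noncomputable section

namespace Vale.Agent.P217.Engine

open MvPolynomial

variable {p : ℕ} [Fact p.Prime] {K : Type} [Field K] [CharP K p]

/-- A field spanned by `p ^ c` elements over its `p`-th powers is spanned by `p ^ (M * c)` elements
over its `p ^ M`-th powers. -/
theorem exists_pow_span {c : ℕ} (L : Subfield K)
    (h : ∃ b : Fin (p ^ c) → K, (∀ i, b i ∈ L) ∧
      ∀ y ∈ L, ∃ z : Fin (p ^ c) → K, (∀ i, z i ∈ L) ∧ y = ∑ i, z i ^ p * b i) (M : ℕ) :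
    ∃ (ι : Type) (_ : Fintype ι) (B : ι → K), Fintype.card ι ≤ p ^ (M * c) ∧
      ∀ y ∈ L, ∃ z : ι → K, (∀ f, z f ∈ L) ∧ y = ∑ f, z f ^ p ^ M * B f := by
  induction M with
  | zero => exact ⟨PUnit, inferInstance, fun _ => 1, by simp, fun y hy => ⟨fun _ => y, fun _ => hy,
      by simp⟩⟩
  | succ M ih =>
    obtain ⟨ι, hι, B, hcard, hB⟩ := ih
    obtain ⟨b, -, hb⟩ := h
    refine ⟨Fin (p ^ c) × ι, inferInstance, fun q => B q.2 ^ p * b q.1, ?_, fun y hy => ?_⟩
    · rw [Fintype.card_prod, Fintype.card_fin, add_mul, one_mul, pow_add, mul_comm]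
      exact Nat.mul_le_mul hcard le_rfl
    obtain ⟨z, hz, e⟩ := hb y hy
    choose u hu hu' using fun i => hB (z i) (hz i)
    refine ⟨fun q => u q.1 q.2, fun q => hu _ _, ?_⟩
    rw [e, Fintype.sum_prod_type]
    refine Finset.sum_congr rfl fun i _ => ?_
    rw [hu' i, sum_pow_char, Finset.sum_mul]
    refine Finset.sum_congr rfl fun f _ => ?_
    rw [mul_pow, ← pow_mul, ← pow_succ, mul_assoc]

variable {σ : Type} [Fintype σ]

/-- A relation: a nonzero polynomial with small exponents, vanishing at `T`, whose coefficients are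
`p ^ M`-th powers of elements of `R`. -/
structure IsRel (R : Subring K) (T : σ → K) (M M' : ℕ) (p : ℕ) (Q : MvPolynomial σ K) : Prop where
  ne_zero : Q ≠ 0
  coeff_pow : ∀ α, ∃ z ∈ R, coeff α Q = z ^ p ^ M
  deg_lt : ∀ α ∈ Q.support, ∀ i, α i < p ^ M'
  eval_eq : eval T Q = 0

omit [Fintype σ] in
theorem exists_scaled {A : Subring K} {T : σ → K} {y : K}
    (hy : y ∈ Algebra.adjoin (Subfield.closure (A : Set K)) (Set.range T)) :
    ∃ s ∈ A, s ≠ 0 ∧ s * y ∈ Subring.closure ((A : Set K) ∪ Set.range T) := by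
  set R := Subring.closure ((A : Set K) ∪ Set.range T)
  have hA : ∀ {a}, a ∈ A → a ∈ R := fun ha => Subring.subset_closure (Or.inl ha)
  induction hy using Algebra.adjoin_induction with
  | mem x hx => exact ⟨1, one_mem _, one_ne_zero, by
      rw [one_mul]; exact Subring.subset_closure (Or.inr hx)⟩
  | algebraMap r =>
    obtain ⟨y, hy, z, hz, e⟩ := Subfield.mem_closure_iff.1 r.2
    rw [Subring.closure_eq] at hy hz
    by_cases h0 : z = 0
    · refine ⟨1, one_mem _, one_ne_zero, ?_⟩
      rw [h0, div_zero] at e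
      have : algebraMap (Subfield.closure (A : Set K)) K r = 0 := e.symm
      rw [this, mul_zero]
      exact zero_mem _
    · refine ⟨z, hz, h0, ?_⟩
      have : algebraMap (Subfield.closure (A : Set K)) K r = y / z := e.symm
      rw [this, mul_div_cancel₀ _ h0]
      exact hA hy
  | add a b _ _ ha hb =>
    obtain ⟨s, hs, s0, hs'⟩ := ha
    obtain ⟨u, hu, u0, hu'⟩ := hb
    refine ⟨s * u, mul_mem hs hu, mul_ne_zero s0 u0, ?_⟩
    rw [show s * u * (a + b) = u * (s * a) + s * (u * b) by ring]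
    exact add_mem (mul_mem (hA hu) hs') (mul_mem (hA hs) hu')
  | mul a b _ _ ha hb =>
    obtain ⟨s, hs, s0, hs'⟩ := ha
    obtain ⟨u, hu, u0, hu'⟩ := hb
    refine ⟨s * u, mul_mem hs hu, mul_ne_zero s0 u0, ?_⟩
    rw [show s * u * (a * b) = s * a * (u * b) by ring]
    exact mul_mem hs' hu'

/-- More rows than the `p`-degree give a relation. -/
theorem exists_rel {c : ℕ} {A : Subring K} {T : σ → K} (hT : ∀ i, IsIntegral A (T i))
    (h : ∃ b : Fin (p ^ c) → K, (∀ i, b i ∈ Subfield.closure (A : Set K)) ∧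
      ∀ y ∈ Subfield.closure (A : Set K), ∃ z : Fin (p ^ c) → K,
        (∀ i, z i ∈ Subfield.closure (A : Set K)) ∧ y = ∑ i, z i ^ p * b i)
    {M M' : ℕ} (hM : M * c < M' * Fintype.card σ) :
    ∃ Q, IsRel (Subring.closure ((A : Set K) ∪ Set.range T)) T M M' p Q := by
  classical
  set L := Subfield.closure (A : Set K) with hL
  obtain ⟨ι, hι, B, hcard, hB⟩ := exists_pow_span L h M
  let incl : A →+* L :=
    { toFun := fun a => ⟨a, Subfield.subset_closure a.2⟩
      map_one' := rfl
      map_mul' := fun _ _ => rfl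
      map_zero' := rfl
      map_add' := fun _ _ => rfl }
  have hTL : ∀ x ∈ Set.range T, IsIntegral L x := by
    rintro _ ⟨i, rfl⟩
    obtain ⟨P, hP, hP'⟩ := hT i
    refine ⟨P.map incl, hP.map _, ?_⟩
    rw [Polynomial.eval₂_map]
    exact hP'
  set V := Algebra.adjoin L (Set.range T)
  have : Module.Finite L V := Module.Finite.iff_fg.2
    (fg_adjoin_of_finite (Set.finite_range T) hTL)
  let bV := Module.finBasis L V
  set D := Module.finrank L V
  have hD : 0 < D := Module.finrank_pos
  -- the smaller field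
  set k : Subfield K := L.map (iterateFrobenius K p M)
  let idx := σ → Fin (p ^ M')
  let mon : idx → K := fun α => ∏ i, T i ^ (α i : ℕ)
  let v : idx × Fin D → K := fun q => (bV q.2 : K) ^ p ^ M * mon q.1
  let w : ι × Fin D → K := fun q => B q.1 * (bV q.2 : K)
  have hv : Set.range v ⊆ (Submodule.span k (Set.range w) : Set K) := by
    rintro _ ⟨q, rfl⟩
    have hq : v q ∈ V := mul_mem (pow_mem (bV q.2).2 _)
      (prod_mem fun i _ => pow_mem (Algebra.subset_adjoin (R := L) (s := Set.range T) ⟨i, rfl⟩) _)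
    have e : v q = ∑ l, ((bV.repr ⟨v q, hq⟩ l : L) : K) * (bV l : K) := by
      have h := congrArg V.val (bV.sum_repr ⟨v q, hq⟩)
      simp only [map_sum, map_smul, Subfield.smul_def, smul_eq_mul, Subalgebra.coe_val] at h
      exact h.symm
    rw [e]
    refine Submodule.sum_mem _ fun l _ => ?_
    obtain ⟨z, hz, ez⟩ := hB _ (bV.repr ⟨v q, hq⟩ l).2
    rw [ez, Finset.sum_mul]
    refine Submodule.sum_mem _ fun f _ => ?_
    have : z f ^ p ^ M * B f * (bV l : K) =
        (⟨z f ^ p ^ M, Subfield.mem_map.2 ⟨z f, hz f, iterateFrobenius_def p M (z f)⟩⟩ : k) • w (f, l) := by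
      rw [Subfield.smul_def, smul_eq_mul, mul_assoc]
    rw [this]
    exact Submodule.smul_mem _ _ (Submodule.subset_span ⟨(f, l), rfl⟩)
  have hdep : ¬ LinearIndependent k v := by
    intro hli
    have h1 := linearIndependent_le_span_aux' v hli (Set.range w) (by exact_mod_cast hv)
    have h2 : Fintype.card (Set.range w) ≤ p ^ (M * c) * D := by
      refine (Fintype.card_range_le w).trans ?_
      rw [Fintype.card_prod, Fintype.card_fin]
      exact Nat.mul_le_mul hcard le_rfl
    have h3 : Fintype.card (idx × Fin D) = p ^ (M' * Fintype.card σ) * D := by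
      simp [idx, pow_mul]
    have h4 : p ^ (M * c) < p ^ (M' * Fintype.card σ) :=
      Nat.pow_lt_pow_right (Fact.out : p.Prime).one_lt hM
    have h5 := (Nat.mul_lt_mul_right hD).2 h4
    omega
  obtain ⟨g, hg, ⟨α₀, l₀⟩, hne⟩ := Fintype.not_linearIndependent_iff.1 hdep
  choose x hxL hx using fun q => Subfield.mem_map.1 (g q).2
  let z : idx → V := fun α => ∑ l, (⟨x (α, l), hxL _⟩ : L) • bV l
  have hz0 : z α₀ ≠ 0 := by
    intro h0
    have := Fintype.linearIndependent_iff.1 bV.linearIndependent _ h0 l₀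
    apply hne
    apply Subtype.ext
    rw [← hx (α₀, l₀), show x (α₀, l₀) = 0 from congrArg Subtype.val this]
    exact map_zero _
  have hsum : ∑ α, (z α : K) ^ p ^ M * mon α = 0 := by
    have e : ∀ α, (z α : K) ^ p ^ M = ∑ l, (g (α, l) : K) * (bV l : K) ^ p ^ M := fun α => by
      simp only [z, AddSubmonoidClass.coe_finsetSum, SetLike.val_smul, Subfield.smul_def,
        smul_eq_mul, ← hx, iterateFrobenius_def, sum_pow_char_pow, mul_pow]
    simp only [e, Finset.sum_mul]
    rw [← Fintype.sum_prod_type' (f := fun α l => (g (α, l) : K) * (bV l : K) ^ p ^ M * mon α)]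
    refine Eq.trans (Finset.sum_congr rfl fun q _ => ?_) hg
    simp only [v, Subfield.smul_def, smul_eq_mul, mul_assoc]
  choose s hsA hs0 hsR using fun α => exists_scaled (z α).2
  set S := ∏ α, s α
  have hS : S ≠ 0 := Finset.prod_ne_zero_iff.2 fun α _ => hs0 α
  have hSR : ∀ α, S * (z α : K) ∈ Subring.closure ((A : Set K) ∪ Set.range T) := fun α => by
    simp only [S]
    rw [← Finset.prod_erase_mul _ _ (Finset.mem_univ α), mul_assoc]
    exact mul_mem (Subring.subset_closure (Or.inl (prod_mem fun b _ => hsA b))) (hsR α)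
  let emb : idx → (σ →₀ ℕ) := fun α => Finsupp.equivFunOnFinite.symm fun i => (α i : ℕ)
  have hinj : Function.Injective emb := fun a b hab => funext fun i => Fin.ext (DFunLike.congr_fun hab i)
  let Q : MvPolynomial σ K := ∑ α, monomial (emb α) ((S * (z α : K)) ^ p ^ M)
  have hcoeff : ∀ α, coeff (emb α) Q = (S * (z α : K)) ^ p ^ M := fun α => by
    simp only [Q, coeff_sum, coeff_monomial]
    rw [Finset.sum_eq_single α (fun b _ hb => if_neg fun e => hb (hinj e)) (by simp)]
    exact if_pos rfl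
  have hout : ∀ a, a ∉ Set.range emb → coeff a Q = 0 := fun a ha => by
    simp only [Q, coeff_sum, coeff_monomial]
    exact Finset.sum_eq_zero fun b _ => if_neg fun e => ha ⟨b, e⟩
  refine ⟨Q, ⟨fun h0 => ?_, fun a => ?_, fun a ha i => ?_, ?_⟩⟩
  · have := hcoeff α₀
    rw [h0, coeff_zero] at this
    exact mul_ne_zero hS (fun e => hz0 (Subtype.ext e))
      (eq_zero_of_pow_eq_zero this.symm)
  · by_cases ha : a ∈ Set.range emb
    · obtain ⟨α, rfl⟩ := ha
      exact ⟨_, hSR α, hcoeff α⟩
    · exact ⟨0, zero_mem _, by rw [hout a ha, zero_pow (pow_ne_zero _ (Fact.out : p.Prime).ne_zero)]⟩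
  · by_cases hr : a ∈ Set.range emb
    · obtain ⟨α, rfl⟩ := hr
      exact (α i).isLt
    · exact absurd (hout a hr) (mem_support_iff.1 ha)
  · have e : eval T Q = ∑ α, S ^ p ^ M * ((z α : K) ^ p ^ M * mon α) := by
      simp only [Q, map_sum, eval_monomial, mul_pow, mul_assoc]
      refine Finset.sum_congr rfl fun α _ => ?_
      rw [Finsupp.prod_fintype _ _ (fun i => pow_zero _)]
      rfl
    rw [e, ← Finset.mul_sum, hsum, mul_zero]

end Vale.Agent.P217.Engine
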