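import Vale.Agent.P217.Core.EngineData
import Vale.Agent.P217.Core.Engine.Reduced

/-!
# P217 module G: comparison of weights and exponents
-/

noncomputable section

namespace Vale.Agent.P217.Engine

open Filter

/-- A larger weight is negligible. -/
theorem eventually_lt_of_weight {s f φ : ℕ → ℝ} (hs : Tendsto s atTop atTop) {x y : ℝ} (hxy : y < x)
    {C₁ C₂ : ℝ} (hf : ∀ᶠ m in atTop, f m ≤ Real.exp (C₁ - s m * x))
    (hφ : ∀ᶠ m in atTop, Real.exp (C₂ - s m * y) ≤ φ m) :
    ∀ᶠ m in atTop, f m < φ m := by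
  filter_upwards [hf, hφ, hs.eventually_gt_atTop ((C₁ - C₂) / (x - y))] with m h1 h2 h3
  refine h1.trans_lt (lt_of_lt_of_le (Real.exp_lt_exp.2 ?_) h2)
  rw [div_lt_iff₀ (sub_pos.2 hxy)] at h3
  linarith

variable {p n : ℕ} [Fact p.Prime]

/-- Exponents of the Frobenius matter modulo `n`. -/
theorem pow_congr (hn : 1 ≤ n) (a : Coef p n) {x y : ℕ} (h : x % n = y % n) :
    a ^ p ^ x = a ^ p ^ y := by
  have : Fintype (Coef p n) := Fintype.ofFinite _
  have hc : Fintype.card (Coef p n) = p ^ n := by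
    rw [← Nat.card_eq_fintype_card]; exact GaloisField.card p n (by omega)
  have key : ∀ x : ℕ, a ^ p ^ x = a ^ p ^ (x % n) := fun x => by
    have h := FiniteField.pow_card_pow (x / n) (a ^ p ^ (x % n))
    rw [hc, ← pow_mul, ← pow_mul, ← pow_add, Nat.mod_add_div] at h
    exact h
  rw [key x, key y, h]

theorem toNat_emod_lt (hn : 1 ≤ n) (κ : ℤ) : (κ % (n : ℤ)).toNat < n := by
  have := Int.emod_lt_of_pos κ (show (0 : ℤ) < n by omega)
  omega

/-- A power of a character is the shifted character. -/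
theorem chi_pow (hn : 1 ≤ n) (κ : ℤ) (t : ℕ) (a : Coef p n) :
    chi p n κ a ^ p ^ t = a ^ p ^ ((κ + t) % (n : ℤ)).toNat := by
  have h0 : (n : ℤ) ≠ 0 := by omega
  rw [chi, ← pow_mul, ← pow_add]
  refine pow_congr hn a ?_
  have h1 := Int.emod_nonneg κ h0
  have h2 := Int.emod_nonneg (κ + t) h0
  have : ((κ % n).toNat + t : ℕ) ≡ ((κ + t) % n).toNat [MOD n] := by
    rw [← Int.natCast_modEq_iff]
    push_cast
    rw [Int.toNat_of_nonneg h1, Int.toNat_of_nonneg h2]
    exact ((Int.mod_modEq κ n).add_right _).trans (Int.mod_modEq (κ + t) n).symm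
  exact this

/-- Equal exponents mean congruent indices. -/
theorem dvd_of_exp_eq (hn : 1 ≤ n) {x y : ℤ}
    (h : (x % (n : ℤ)).toNat = (y % (n : ℤ)).toNat) : (n : ℤ) ∣ x - y := by
  have h0 : (n : ℤ) ≠ 0 := by omega
  have h1 := Int.emod_nonneg x h0
  have h2 := Int.emod_nonneg y h0
  exact Int.ModEq.dvd (show y % (n : ℤ) = x % n by omega)

/-- Two congruent members of a window of width less than `n` are equal. -/
theorem eq_of_dvd_window {l u x y : ℤ} (hw : u < l + n) (hx : l ≤ x) (hx' : x ≤ u) (hy : l ≤ y)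
    (hy' : y ≤ u) (h : (n : ℤ) ∣ x - y) : x = y :=
  sub_eq_zero.1 (Int.eq_zero_of_abs_lt_dvd h (abs_lt.2 ⟨by omega, by omega⟩))

end Vale.Agent.P217.Engine
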